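import Vale.Agent.P089.Bdl.B3

/-!
# P089: induction of operators from a subgroup (helper499)
-/

set_option autoImplicit false

namespace Vale.Agent.P089.Ind

open Vale.Agent.P089.Asm Vale.Agent.P086

section amp

variable {G C : Type}

theorem sl_inj (c : C) : Function.Injective (fun g : G => (c, g)) := fun _ _ h => (Prod.mk.inj h).2

/-- The restriction of a function on `C × G` to `{c} × G`. -/
noncomputable def sl (c : C) : L2 (C × G) →L[ℂ] L2 G :=
  ContinuousLinearMap.adjoint (pushL2 (fun g : G => (c, g)) (sl_inj c))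

theorem sl_apply (c : C) (ξ : L2 (C × G)) (g : G) :
    (sl c ξ : G → ℂ) g = (ξ : C × G → ℂ) (c, g) := adjoint_pushL2_apply (sl_inj c) ξ g

theorem summable_sl (ξ : L2 (C × G)) : Summable fun c => ‖sl c ξ‖ ^ 2 := by
  have h1 := (summable_prod_of_nonneg (f := fun j : C × G => ‖(ξ : C × G → ℂ) j‖ ^ 2)
    fun j => sq_nonneg _).1 (L2.summable_sq ξ)
  refine h1.2.congr fun c => ?_
  rw [L2.norm_sq]
  exact tsum_congr fun g => by rw [sl_apply]

theorem tsum_sl (ξ : L2 (C × G)) : ∑' c, ‖sl c ξ‖ ^ 2 = ‖ξ‖ ^ 2 := by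
  rw [L2.norm_sq ξ, (L2.summable_sq ξ).tsum_prod]
  refine tsum_congr fun c => ?_
  rw [L2.norm_sq]
  exact tsum_congr fun g => by rw [sl_apply]

theorem amp_summable (T : L2 G →L[ℂ] L2 G) (ξ : L2 (C × G)) :
    Summable fun j : C × G => ‖(T (sl j.1 ξ) : G → ℂ) j.2‖ ^ 2 := by
  refine (summable_prod_of_nonneg fun j => sq_nonneg _).2 ⟨fun c => ?_, ?_⟩
  · change Summable fun g : G => ‖(T (sl c ξ) : G → ℂ) g‖ ^ 2
    exact L2.summable_sq (T (sl c ξ))
  have h1 : ∀ c : C, ∑' g, ‖(T (sl c ξ) : G → ℂ) g‖ ^ 2 = ‖T (sl c ξ)‖ ^ 2 := fun c => by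
    rw [L2.norm_sq]
  refine Summable.of_nonneg_of_le (fun c => ?_) (fun c => ?_) ((summable_sl ξ).mul_left (‖T‖ ^ 2))
  · exact tsum_nonneg fun g => sq_nonneg _
  · change ∑' g, ‖(T (sl c ξ) : G → ℂ) g‖ ^ 2 ≤ _
    rw [h1, ← mul_pow]
    exact pow_le_pow_left₀ (norm_nonneg _) (T.le_opNorm _) 2

/-- The operator `1 ⊗ T` on `ℓ²(C × G)`. -/
noncomputable def amp (T : L2 G →L[ℂ] L2 G) : L2 (C × G) →L[ℂ] L2 (C × G) :=
  LinearMap.mkContinuous
    { toFun := fun ξ => ⟨fun j => (T (sl j.1 ξ) : G → ℂ) j.2, L2.mem (amp_summable T ξ)⟩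
      map_add' := fun ξ η => by
        apply lp.ext
        funext j
        change (T (sl j.1 (ξ + η)) : G → ℂ) j.2 = (T (sl j.1 ξ) : G → ℂ) j.2 + (T (sl j.1 η) : G → ℂ) j.2
        rw [map_add, map_add]
        rfl
      map_smul' := fun c ξ => by
        apply lp.ext
        funext j
        change (T (sl j.1 (c • ξ)) : G → ℂ) j.2 = c • (T (sl j.1 ξ) : G → ℂ) j.2
        rw [map_smul, map_smul]
        rfl }
    ‖T‖ fun ξ => by
      have h : ‖(⟨fun j => (T (sl j.1 ξ) : G → ℂ) j.2, L2.mem (amp_summable T ξ)⟩ : L2 (C × G))‖ ^ 2 ≤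
          (‖T‖ * ‖ξ‖) ^ 2 := by
        rw [L2.norm_sq]
        change ∑' j : C × G, ‖(T (sl j.1 ξ) : G → ℂ) j.2‖ ^ 2 ≤ _
        rw [(amp_summable T ξ).tsum_prod, mul_pow, ← tsum_sl ξ, ← tsum_mul_left]
        refine Summable.tsum_le_tsum (fun c => ?_) ?_ ((summable_sl ξ).mul_left _)
        · change ∑' g, ‖(T (sl c ξ) : G → ℂ) g‖ ^ 2 ≤ _
          rw [← L2.norm_sq, ← mul_pow]
          exact pow_le_pow_left₀ (norm_nonneg _) (T.le_opNorm _) 2
        · exact ((summable_prod_of_nonneg fun j => sq_nonneg _).1 (amp_summable T ξ)).2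
      exact (sq_le_sq₀ (norm_nonneg _) (by positivity)).1 h

theorem amp_apply (T : L2 G →L[ℂ] L2 G) (ξ : L2 (C × G)) (j : C × G) :
    (amp T ξ : C × G → ℂ) j = (T (sl j.1 ξ) : G → ℂ) j.2 := rfl

theorem sl_amp (T : L2 G →L[ℂ] L2 G) (ξ : L2 (C × G)) (c : C) : sl c (amp T ξ) = T (sl c ξ) := by
  apply lp.ext
  funext g
  rw [sl_apply, amp_apply]

theorem norm_amp_le (T : L2 G →L[ℂ] L2 G) : ‖(amp T : L2 (C × G) →L[ℂ] L2 (C × G))‖ ≤ ‖T‖ :=
  LinearMap.mkContinuous_norm_le _ (norm_nonneg _) _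

theorem amp_mul (S T : L2 G →L[ℂ] L2 G) :
    (amp (S * T) : L2 (C × G) →L[ℂ] L2 (C × G)) = amp S * amp T := by
  ext ξ j
  change (S (T (sl j.1 ξ)) : G → ℂ) j.2 = (amp S (amp T ξ) : C × G → ℂ) j
  rw [amp_apply, sl_amp]

theorem amp_add (S T : L2 G →L[ℂ] L2 G) :
    (amp (S + T) : L2 (C × G) →L[ℂ] L2 (C × G)) = amp S + amp T := by
  ext ξ j
  rfl

theorem amp_smul (z : ℂ) (T : L2 G →L[ℂ] L2 G) :
    (amp (z • T) : L2 (C × G) →L[ℂ] L2 (C × G)) = z • amp T := by
  ext ξ j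
  rfl

theorem sl_single [DecidableEq C] [DecidableEq G] (c c' : C) (g : G) :
    sl c (lp.single 2 (c', g) (1 : ℂ) : L2 (C × G)) =
      if c = c' then lp.single 2 g (1 : ℂ) else 0 := by
  apply lp.ext
  funext x
  rw [sl_apply, lp.single_apply, Pi.single_apply]
  by_cases hc : c = c'
  · subst hc
    rw [if_pos rfl, lp.single_apply, Pi.single_apply]
    by_cases hx : x = g
    · rw [if_pos hx, if_pos (by rw [hx])]
    · rw [if_neg hx, if_neg fun h => hx (Prod.mk.inj h).2]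
  · rw [if_neg hc, if_neg fun h => hc (Prod.mk.inj h).1]
    rfl

theorem ent_amp_self (T : L2 G →L[ℂ] L2 G) (c : C) (g g' : G) :
    ent (amp T : L2 (C × G) →L[ℂ] L2 (C × G)) (c, g) (c, g') = ent T g g' := by
  classical
  rw [entx_eq, entx_eq, amp_apply, sl_single, if_pos rfl]

theorem ent_amp_ne (T : L2 G →L[ℂ] L2 G) {c c' : C} (h : c ≠ c') (g g' : G) :
    ent (amp T : L2 (C × G) →L[ℂ] L2 (C × G)) (c, g) (c', g') = 0 := by
  classical
  rw [entx_eq, amp_apply, sl_single, if_neg h, map_zero]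
  rfl

theorem amp_star (T : L2 G →L[ℂ] L2 G) :
    (amp (star T) : L2 (C × G) →L[ℂ] L2 (C × G)) = star (amp T) := by
  refine ent_ext fun j k => ?_
  obtain ⟨c, g⟩ := j
  obtain ⟨c', g'⟩ := k
  rw [ent_star]
  by_cases h : c = c'
  · subst h
    rw [ent_amp_self, ent_amp_self, ent_star]
  · rw [ent_amp_ne _ h, ent_amp_ne _ (Ne.symm h), star_zero]

end amp

section ind

variable {G Γ C : Type}

/-- The operator on `ℓ²(Γ)` given by `T` on each of the sets `e ({c} × G)`. -/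
noncomputable def ind (e : C × G ≃ Γ) (T : L2 G →L[ℂ] L2 G) : L2 Γ →L[ℂ] L2 Γ :=
  pushL2 e e.injective ∘L amp T ∘L ContinuousLinearMap.adjoint (pushL2 e e.injective)

theorem push_adj (e : C × G ≃ Γ) (ξ : L2 Γ) :
    pushL2 e e.injective (ContinuousLinearMap.adjoint (pushL2 e e.injective) ξ) = ξ := by
  apply lp.ext
  funext k
  obtain ⟨j, rfl⟩ := e.surjective k
  rw [pushL2_apply, adjoint_pushL2_apply]

theorem adj_push (e : C × G ≃ Γ) (ξ : L2 (C × G)) :
    ContinuousLinearMap.adjoint (pushL2 e e.injective) (pushL2 e e.injective ξ) = ξ := by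
  apply lp.ext
  funext j
  rw [adjoint_pushL2_apply, pushL2_apply]

theorem ind_apply (e : C × G ≃ Γ) (T : L2 G →L[ℂ] L2 G) (ξ : L2 Γ) (j : C × G) :
    (ind e T ξ : Γ → ℂ) (e j) =
      (T (sl j.1 (ContinuousLinearMap.adjoint (pushL2 e e.injective) ξ)) : G → ℂ) j.2 := by
  change (pushL2 e e.injective (amp T (ContinuousLinearMap.adjoint (pushL2 e e.injective) ξ)) :
    Γ → ℂ) (e j) = _
  rw [pushL2_apply, amp_apply]

theorem ind_mul (e : C × G ≃ Γ) (S T : L2 G →L[ℂ] L2 G) : ind e (S * T) = ind e S * ind e T := by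
  ext1 ξ
  change pushL2 e e.injective (amp (S * T) (ContinuousLinearMap.adjoint (pushL2 e e.injective) ξ)) =
    pushL2 e e.injective (amp S (ContinuousLinearMap.adjoint (pushL2 e e.injective)
      (pushL2 e e.injective (amp T (ContinuousLinearMap.adjoint (pushL2 e e.injective) ξ)))))
  rw [adj_push, amp_mul]
  rfl

theorem ind_add (e : C × G ≃ Γ) (S T : L2 G →L[ℂ] L2 G) : ind e (S + T) = ind e S + ind e T := by
  unfold ind
  rw [amp_add, ContinuousLinearMap.add_comp, ContinuousLinearMap.comp_add]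

theorem ind_smul (e : C × G ≃ Γ) (z : ℂ) (T : L2 G →L[ℂ] L2 G) : ind e (z • T) = z • ind e T := by
  unfold ind
  rw [amp_smul, ContinuousLinearMap.smul_comp, ContinuousLinearMap.comp_smul]

theorem ind_star (e : C × G ≃ Γ) (T : L2 G →L[ℂ] L2 G) : ind e (star T) = star (ind e T) := by
  unfold ind
  rw [amp_star, ContinuousLinearMap.star_eq_adjoint, ContinuousLinearMap.star_eq_adjoint,
    ContinuousLinearMap.adjoint_comp, ContinuousLinearMap.adjoint_comp,
    ContinuousLinearMap.adjoint_adjoint, ContinuousLinearMap.comp_assoc]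

theorem norm_ind_le (e : C × G ≃ Γ) (T : L2 G →L[ℂ] L2 G) : ‖ind e T‖ ≤ ‖T‖ := by
  refine ContinuousLinearMap.opNorm_le_bound _ (norm_nonneg _) fun ξ => ?_
  change ‖pushL2 e e.injective (amp T (ContinuousLinearMap.adjoint (pushL2 e e.injective) ξ))‖ ≤ _
  rw [norm_pushL2_apply]
  refine ((amp T).le_opNorm _).trans ?_
  refine mul_le_mul (norm_amp_le T) ?_ (norm_nonneg _) (norm_nonneg _)
  refine ((ContinuousLinearMap.adjoint (pushL2 e e.injective)).le_opNorm ξ).trans ?_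
  rw [LinearIsometryEquiv.norm_map]
  have h := norm_pushL2_le e.injective
  exact (mul_le_mul_of_nonneg_right h (norm_nonneg _)).trans (one_mul _).le

/-- `ind` as a continuous linear map -/
noncomputable def indL (e : C × G ≃ Γ) : (L2 G →L[ℂ] L2 G) →L[ℂ] (L2 Γ →L[ℂ] L2 Γ) :=
  LinearMap.mkContinuous
    { toFun := ind e, map_add' := ind_add e, map_smul' := fun z T => ind_smul e z T } 1
    fun T => by rw [one_mul]; exact norm_ind_le e T

end ind

section group

variable {G Γ : Type} [Group G] [Group Γ] (ι : G →* Γ) (hι : Function.Injective ι)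

include hι in
/-- The right cosets of the subgroup -/
theorem exists_equiv : ∃ (C : Type) (e : C × G ≃ Γ), ∀ c g x, e (c, g * x) = ι g * e (c, x) := by
  classical
  refine ⟨Γ ⧸ ι.range, Equiv.ofBijective
    (fun j : (Γ ⧸ ι.range) × G => ι j.2 * (Quotient.out j.1)⁻¹) ⟨?_, ?_⟩, ?_⟩
  · rintro ⟨c, x⟩ ⟨c', x'⟩ h
    have h1 : ι x * (Quotient.out c)⁻¹ = ι x' * (Quotient.out c')⁻¹ := h
    have h2 : (Quotient.out c)⁻¹ * Quotient.out c' = ι (x⁻¹ * x') := by
      rw [map_mul, map_inv]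
      have h3 : (Quotient.out c)⁻¹ = (ι x)⁻¹ * (ι x' * (Quotient.out c')⁻¹) := by
        rw [← h1, inv_mul_cancel_left]
      rw [h3]
      group
    have h4 : c = c' := by
      rw [← Quotient.out_eq c, ← Quotient.out_eq c']
      exact QuotientGroup.eq.2 ⟨_, h2.symm⟩
    subst h4
    have h5 : ι x = ι x' := mul_right_cancel h1
    rw [hι h5]
  · intro γ
    obtain ⟨y, hy⟩ := QuotientGroup.mk_out_eq_mul ι.range γ⁻¹
    obtain ⟨x, hx⟩ := y.2
    refine ⟨(((γ⁻¹ : Γ) : Γ ⧸ ι.range), x), ?_⟩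
    change ι x * (Quotient.out ((γ⁻¹ : Γ) : Γ ⧸ ι.range))⁻¹ = γ
    rw [hy, ← hx]
    group
  · intro c g x
    change ι (g * x) * (Quotient.out c)⁻¹ = ι g * (ι x * (Quotient.out c)⁻¹)
    rw [map_mul, mul_assoc]

/-- the compression to the subgroup -/
noncomputable def cpr : (L2 Γ →L[ℂ] L2 Γ) →L[ℂ] (L2 G →L[ℂ] L2 G) :=
  LinearMap.mkContinuous
    { toFun := fun T => ContinuousLinearMap.adjoint (pushL2 ι hι) ∘L T ∘L pushL2 ι hι
      map_add' := fun S T => by rw [ContinuousLinearMap.add_comp, ContinuousLinearMap.comp_add]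
      map_smul' := fun z T => by
        rw [ContinuousLinearMap.smul_comp, ContinuousLinearMap.comp_smul, RingHom.id_apply] } 1
    fun T => by
      rw [one_mul]
      refine ContinuousLinearMap.opNorm_le_bound _ (norm_nonneg _) fun ξ => ?_
      change ‖ContinuousLinearMap.adjoint (pushL2 ι hι) (T (pushL2 ι hι ξ))‖ ≤ _
      refine ((ContinuousLinearMap.adjoint (pushL2 ι hι)).le_opNorm _).trans ?_
      rw [LinearIsometryEquiv.norm_map]
      have h := norm_pushL2_le hι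
      refine (mul_le_mul_of_nonneg_right h (norm_nonneg _)).trans ?_
      rw [one_mul]
      refine (T.le_opNorm _).trans ?_
      rw [norm_pushL2_apply]

theorem cpr_apply (T : L2 Γ →L[ℂ] L2 Γ) (ξ : L2 G) (x : G) :
    (cpr ι hι T ξ : G → ℂ) x = (T (pushL2 ι hι ξ) : Γ → ℂ) (ι x) := adjoint_pushL2_apply hι _ x

theorem norm_cpr_le : ‖cpr ι hι‖ ≤ 1 := LinearMap.mkContinuous_norm_le _ zero_le_one _

theorem cpr_lam (g : G) : cpr ι hι (lam (ι g)) = lam g := by
  ext ξ x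
  rw [cpr_apply, lam_apply, lam_apply, ← map_inv, ← map_mul, pushL2_apply]

theorem cpr_lam_ne {γ : Γ} (h : γ ∉ Set.range ι) : cpr ι hι (lam γ) = 0 := by
  ext ξ x
  rw [cpr_apply, lam_apply, pushL2_apply_not_mem hι]
  · rfl
  · rintro ⟨y, hy⟩
    apply h
    refine ⟨x * y⁻¹, ?_⟩
    rw [map_mul, map_inv, hy]
    group

theorem ind_lam {C : Type} (e : C × G ≃ Γ) (he : ∀ c g x, e (c, g * x) = ι g * e (c, x)) (g : G) :
    ind e (lam g) = lam (ι g) := by
  ext ξ γ
  obtain ⟨⟨c, x⟩, rfl⟩ := e.surjective γ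
  rw [ind_apply, lam_apply, lam_apply, sl_apply, adjoint_pushL2_apply, he, map_inv]

theorem ind_mem {C : Type} (e : C × G ≃ Γ) (he : ∀ c g x, e (c, g * x) = ι g * e (c, x))
    {P : L2 G →L[ℂ] L2 G} (hP : P ∈ CstarR G) : ind e P ∈ CstarR Γ := by
  refine map_mem_closure (indL e).continuous hP fun T hT => ?_
  have h : Submodule.span ℂ {T : L2 G →L[ℂ] L2 G | ∃ g, IsLam g T} ≤
      (Submodule.span ℂ {T : L2 Γ →L[ℂ] L2 Γ | ∃ g, IsLam g T}).comap (indL e).toLinearMap := by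
    rw [Submodule.span_le]
    rintro T ⟨g, hg⟩
    rw [isLam_iff] at hg
    subst hg
    refine Submodule.subset_span ⟨ι g, ?_⟩
    rw [isLam_iff]
    exact ind_lam ι e he g
  exact h hT

theorem cpr_ind {C : Type} (e : C × G ≃ Γ) (he : ∀ c g x, e (c, g * x) = ι g * e (c, x))
    {P : L2 G →L[ℂ] L2 G} (hP : P ∈ CstarR G) : cpr ι hι (ind e P) = P := by
  have h1 : IsClosed {T : L2 G →L[ℂ] L2 G | cpr ι hι (indL e T) = T} :=
    isClosed_eq ((cpr ι hι).continuous.comp (indL e).continuous) continuous_id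
  refine closure_minimal (fun T hT => ?_) h1 hP
  have h2 : Submodule.span ℂ {T : L2 G →L[ℂ] L2 G | ∃ g, IsLam g T} ≤
      LinearMap.eqLocus ((cpr ι hι).comp (indL e)).toLinearMap LinearMap.id := by
    rw [Submodule.span_le]
    rintro T ⟨g, hg⟩
    rw [isLam_iff] at hg
    subst hg
    change cpr ι hι (ind e (lam g)) = lam g
    rw [ind_lam ι e he, cpr_lam]
  exact h2 hT

/-- **Induction of projections.** -/
theorem exists_ind {P : L2 G →L[ℂ] L2 G} (hP : P ∈ CstarR G) (hPP : P * P = P)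
    (hPs : IsSelfAdjoint P) : ∃ Q ∈ CstarR Γ, Q * Q = Q ∧ IsSelfAdjoint Q ∧ cpr ι hι Q = P := by
  obtain ⟨C, e, he⟩ := exists_equiv ι hι
  refine ⟨ind e P, ind_mem ι e he hP, ?_, ?_, cpr_ind ι hι e he hP⟩
  · rw [← ind_mul, hPP]
  · change star (ind e P) = ind e P
    rw [← ind_star, hPs.star_eq]

theorem push_single [DecidableEq G] [DecidableEq Γ] (h : G) :
    pushL2 ι hι (lp.single 2 h (1 : ℂ)) = lp.single 2 (ι h) (1 : ℂ) := by
  apply lp.ext
  funext γ
  by_cases hγ : γ ∈ Set.range ι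
  · obtain ⟨x, rfl⟩ := hγ
    rw [pushL2_apply, lp.single_apply, lp.single_apply, Pi.single_apply, Pi.single_apply]
    by_cases hx : x = h
    · rw [if_pos hx, if_pos (by rw [hx])]
    · rw [if_neg hx, if_neg fun h' => hx (hι h')]
  · rw [pushL2_apply_not_mem hι _ hγ, lp.single_apply, Pi.single_apply, if_neg]
    rintro rfl
    exact hγ ⟨h, rfl⟩

theorem ent_cpr (T : L2 Γ →L[ℂ] L2 Γ) (g h : G) : ent (cpr ι hι T) g h = ent T (ι g) (ι h) := by
  classical
  rw [entx_eq, entx_eq, cpr_apply, push_single]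

end group

end Vale.Agent.P089.Ind
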