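import Vale.Agent.P089.H499.Est
import Vale.Agent.P089.H499.Ind

/-!
# P089: the counterexamples `G × N`, and all the groups that contain `G` (helper499)
-/

set_option autoImplicit false

namespace Vale.Agent.P089.BC

open scoped InnerProductSpace
open Vale.Agent.P089.Asm Vale.Agent.P089.Ind Vale.Agent.P086

/-- the data which detect `P` in the quotient of `K_0(C*_r(G))` by the image of the assembly map -/
def Detect {G : Type} [Group G] (P : L2 G →L[ℂ] L2 G) (len : G → ℕ) (κ : ℝ) : Prop :=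
  len 1 = 0 ∧ (∀ g h, len (g * h) ≤ len g + len h) ∧
    ∀ L₀ : ℕ, ∃ L ≥ L₀, ∃ t : (L2 G →L[ℂ] L2 G) →L[ℂ] ℂ, ‖t‖ ≤ 2 ∧
      (∀ g h, t (lam (g * h)) = t (lam (h * g))) ∧ (∀ g, len g < L → t (lam g) = 0) ∧
      Real.exp (-κ * L) ≤ ‖t P‖

/-- the data pass to `G × N` -/
theorem Detect.prod {G N : Type} [Group G] [Group N] {P : L2 G →L[ℂ] L2 G} {len : G → ℕ} {κ : ℝ}
    (h : Detect P len κ) {Q : L2 (G × N) →L[ℂ] L2 (G × N)}
    (hι : Function.Injective (MonoidHom.inl G N)) (hQ : cpr (MonoidHom.inl G N) hι Q = P) :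
    Detect Q (fun x => len x.1) κ := by
  classical
  obtain ⟨h1, h2, h3⟩ := h
  refine ⟨h1, fun g h => h2 _ _, fun L₀ => ?_⟩
  obtain ⟨L, hL, t, ht, htr, hlow, hbig⟩ := h3 L₀
  have hval : ∀ γ : G × N, (t.comp (cpr (MonoidHom.inl G N) hι)) (lam γ) =
      if γ.2 = 1 then t (lam γ.1) else 0 := by
    rintro ⟨g, x⟩
    change t (cpr (MonoidHom.inl G N) hι (lam (g, x))) = _
    by_cases hx : x = 1
    · subst hx
      rw [if_pos rfl]
      have e : ((g, 1) : G × N) = MonoidHom.inl G N g := rfl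
      rw [e, cpr_lam]
      rfl
    · rw [if_neg hx, cpr_lam_ne, map_zero]
      rintro ⟨y, hy⟩
      exact hx (congrArg Prod.snd hy).symm
  refine ⟨L, hL, t.comp (cpr (MonoidHom.inl G N) hι), ?_, fun γ δ => ?_, fun γ hγ => ?_, ?_⟩
  · refine (ContinuousLinearMap.opNorm_comp_le _ _).trans ?_
    have h4 := norm_cpr_le (MonoidHom.inl G N) hι
    calc ‖t‖ * ‖cpr (MonoidHom.inl G N) hι‖ ≤ 2 * 1 :=
          mul_le_mul ht h4 (ContinuousLinearMap.opNorm_nonneg _) (by norm_num)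
      _ = 2 := by norm_num
  · rw [hval, hval]
    have e : (γ * δ).2 = 1 ↔ (δ * γ).2 = 1 := by
      rw [Prod.snd_mul, Prod.snd_mul]
      exact mul_eq_one_comm
    by_cases h4 : (γ * δ).2 = 1
    · rw [if_pos h4, if_pos (e.1 h4)]
      exact htr γ.1 δ.1
    · rw [if_neg h4, if_neg fun h5 => h4 (e.2 h5)]
  · rw [hval]
    split_ifs
    · exact hlow _ hγ
    · rfl
  · change Real.exp _ ≤ ‖t (cpr (MonoidHom.inl G N) hι Q)‖
    rw [hQ]
    exact hbig

/-- no multiple of the class of `P` is in the image of the assembly map -/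
theorem Detect.not_inImage {G H E : Type} [Group G] [NormedAddCommGroup H] [InnerProductSpace ℂ H]
    [CompleteSpace H] [NormedAddCommGroup E] [InnerProductSpace ℂ E] [CompleteSpace E]
    {P : L2 G →L[ℂ] L2 G} {len : G → ℕ} {κ : ℝ} (h : Detect P len κ)
    (hP : P ∈ Vale.Agent.P089.CstarR G) (hPP : P * P = P) (b : HilbertBasis G ℂ H)
    (c : HilbertBasis (G × ℕ) ℂ E) {p : ℕ → G →₀ ℚ} (hp : Vale.Agent.P089.IsPlacement p) (m : ℕ)
    (hm : 1 ≤ m) : ¬ InImage b c p (Matrix.diagonal fun _ : Fin m => toH b P) := by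
  classical
  obtain ⟨h1, h2, h3⟩ := h
  intro h4
  refine Vale.Agent.P089.Asm.not_inImage_mul h1 h2 hP hPP κ h3 hp m hm ?_
  have h5 : ((Matrix.diagonal fun _ : Fin m => toH b P).map (frE b)) =
      Matrix.diagonal fun _ : Fin m => P := by
    have h7 : frE b (toH b P) = P := by
      ext1 v
      rw [frE_apply, toH_apply, LinearIsometryEquiv.apply_symm_apply,
        LinearIsometryEquiv.apply_symm_apply]
    ext1 i j
    rw [Matrix.map_apply]
    by_cases hij : i = j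
    · subst hij
      rw [Matrix.diagonal_apply_eq, Matrix.diagonal_apply_eq, h7]
    · rw [Matrix.diagonal_apply_ne _ hij, Matrix.diagonal_apply_ne _ hij, map_zero]
  have h6 := inImage_frE b c p h4
  rwa [h5] at h6

/-- trace of the transported projection -/
theorem inner_toH {G H : Type} [Group G] [NormedAddCommGroup H] [InnerProductSpace ℂ H]
    [CompleteSpace H] (b : HilbertBasis G ℂ H) (P : L2 G →L[ℂ] L2 G) :
    ⟪b 1, toH b P (b 1)⟫_ℂ = ent P 1 1 := by
  classical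
  rw [toH_basis, ent]
  have h1 : ⟪b 1, b.repr.symm (P (lp.single 2 1 (1 : ℂ)))⟫_ℂ =
      ⟪b.repr (b 1), P (lp.single 2 1 (1 : ℂ))⟫_ℂ := by
    rw [← LinearIsometryEquiv.inner_map_map b.repr, LinearIsometryEquiv.apply_symm_apply]
  rw [h1, b.repr_self, lp.inner_single_left]
  simp only [RCLike.inner_apply, map_one, mul_one]

/-- the group itself, its product with any countable group, and all its overgroups -/
theorem final_prod : ∃ (G : Type) (_ : Group G), Countable G ∧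
    ((∃ p : ℕ → G →₀ ℚ, IsPlacement p) ∧
      ∀ (H : Type) [NormedAddCommGroup H] [InnerProductSpace ℂ H] [CompleteSpace H]
        (E : Type) [NormedAddCommGroup E] [InnerProductSpace ℂ E] [CompleteSpace E]
        (b : HilbertBasis G ℂ H) (c : HilbertBasis (G × ℕ) ℂ E),
        (∀ p : ℕ → G →₀ ℚ, IsPlacement p → ¬ AssemblySurjective b c p) ∧ IrrationalTrace b) ∧
    (∀ (N : Type) [Group N] [Countable N], (∃ p : ℕ → (G × N) →₀ ℚ, IsPlacement p) ∧
      ∀ (H : Type) [NormedAddCommGroup H] [InnerProductSpace ℂ H] [CompleteSpace H]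
        (E : Type) [NormedAddCommGroup E] [InnerProductSpace ℂ E] [CompleteSpace E]
        (b : HilbertBasis (G × N) ℂ H) (c : HilbertBasis ((G × N) × ℕ) ℂ E),
        ∃ P ∈ CstarR b, P * P = P ∧ IsSelfAdjoint P ∧
          (∃ x : ℝ, Irrational x ∧ ⟪b 1, P (b 1)⟫_ℂ = x) ∧
          ∀ p : ℕ → (G × N) →₀ ℚ, IsPlacement p → ∀ m : ℕ, 1 ≤ m →
            ¬ InImage b c p (Matrix.diagonal fun _ : Fin m => P)) ∧
    (∀ (Γ : Type) [Group Γ] (ι : G →* Γ), Function.Injective ι →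
      ∀ (H : Type) [NormedAddCommGroup H] [InnerProductSpace ℂ H] [CompleteSpace H]
        (b : HilbertBasis Γ ℂ H), IrrationalTrace b) := by
  obtain ⟨G, hG, hc, P, hP, hPP, hPs, ⟨x, hx, hx1⟩, len, κ, h1, h2, h3⟩ :=
    Vale.Agent.P089.opConclusion
  have hD : Detect P len κ := ⟨h1, h2, h3⟩
  refine ⟨G, hG, hc, ⟨Vale.Agent.P089.exists_placement _, ?_⟩,
    fun N _ _ => ⟨Vale.Agent.P089.exists_placement _, ?_⟩, ?_⟩
  · intro H _ _ _ E _ _ _ b c
    refine ⟨fun p hp hsurj => hD.not_inImage hP hPP b c hp 1 le_rfl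
      (hsurj 1 _ (fun j k => ?_) ?_), irrationalTrace_of b hP hPP hPs ⟨x, hx, hx1⟩⟩
    · rw [Subsingleton.elim j k, Matrix.diagonal_apply_eq]
      exact toH_mem b hP
    · rw [Matrix.diagonal_mul_diagonal]
      simp only [← map_mul, hPP]
  · intro H _ _ _ E _ _ _ b c
    have hι : Function.Injective (MonoidHom.inl G N) := fun a a' h => congrArg Prod.fst h
    obtain ⟨Q, hQ, hQQ, hQs, hQP⟩ := exists_ind (MonoidHom.inl G N) hι hP hPP hPs
    refine ⟨toH b Q, toH_mem b hQ, by rw [← map_mul, hQQ], hQs.map (toH b), ⟨x, hx, ?_⟩,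
      fun p hp m hm => (hD.prod hι hQP).not_inImage hQ hQQ b c hp m hm⟩
    rw [inner_toH, ← hx1, ← hQP, ent_cpr, map_one]
  · intro Γ _ ι hι H _ _ _ b
    obtain ⟨Q, hQ, hQQ, hQs, hQP⟩ := exists_ind ι hι hP hPP hPs
    refine irrationalTrace_of b hQ hQQ hQs ⟨x, hx, ?_⟩
    rw [← hx1, ← hQP, ent_cpr, map_one]

end Vale.Agent.P089.BC
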