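import Vale.Agent.P089.Bdl.B3

/-!
# P089: the trace estimate for matrices (helper499)

`abstract_trace_estimate` and `not_inImage` of `Bdl/B3` for idempotent matrices of any size.
-/

set_option autoImplicit false

namespace Vale.Agent.P089.Asm

open Matrix NNReal Vale.Agent.P212 Vale.Agent.P086

section MatNorm

attribute [local instance] Matrix.linftyOpNormedRing

variable {B : Type} [NormedRing B] {κ : Type} [Fintype κ] [DecidableEq κ]

theorem tr_blocks' {n r : ℕ} (e : Matrix (Fin n) (Fin n) B) (c : Matrix (Fin r) (Fin r) B) (m : ℕ)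
    (τ : B →+ ℂ) (h1 : τ 1 = 0) :
    ∑ i, τ ((fromBlocks (fromBlocks e 0 0 c) 0 0 1 :
      Matrix ((Fin n ⊕ Fin r) ⊕ Fin m) ((Fin n ⊕ Fin r) ⊕ Fin m) B) i i) =
      ∑ i, τ (e i i) + ∑ i, τ (c i i) := by
  rw [Fintype.sum_sum_type, Fintype.sum_sum_type]
  simp only [fromBlocks_apply₁₁, fromBlocks_apply₂₂, one_apply_eq, h1, Finset.sum_const_zero, add_zero]

theorem mvn_blocks' {n r : ℕ} {e f : Matrix (Fin n) (Fin n) B} (c : Matrix (Fin r) (Fin r) B)
    (hc : c * c = c) (m : ℕ) (h : ∃ x y, x * y = e ∧ y * x = f) :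
    ∃ x y : Matrix ((Fin n ⊕ Fin r) ⊕ Fin m) ((Fin n ⊕ Fin r) ⊕ Fin m) B,
      x * y = fromBlocks (fromBlocks e 0 0 c) 0 0 1 ∧
      y * x = fromBlocks (fromBlocks f 0 0 c) 0 0 1 := by
  obtain ⟨x, y, h1, h2⟩ := h
  refine ⟨fromBlocks (fromBlocks x 0 0 c) 0 0 1, fromBlocks (fromBlocks y 0 0 c) 0 0 1, ?_, ?_⟩
  · simp only [fromBlocks_multiply, h1, Matrix.mul_zero, add_zero, Matrix.zero_mul, hc, zero_add, mul_one]
  · simp only [fromBlocks_multiply, h2, Matrix.mul_zero, add_zero, Matrix.zero_mul, hc, zero_add, mul_one]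

theorem idem_blocks' {n r : ℕ} {e : Matrix (Fin n) (Fin n) B} (he : e * e = e)
    (c : Matrix (Fin r) (Fin r) B) (hc : c * c = c) (m : ℕ) :
    (fromBlocks (fromBlocks e 0 0 c) 0 0 1 :
      Matrix ((Fin n ⊕ Fin r) ⊕ Fin m) ((Fin n ⊕ Fin r) ⊕ Fin m) B) *
      fromBlocks (fromBlocks e 0 0 c) 0 0 1 = fromBlocks (fromBlocks e 0 0 c) 0 0 1 := by
  simp only [fromBlocks_multiply, he, Matrix.mul_zero, add_zero, Matrix.zero_mul, hc, zero_add, mul_one]

theorem blocks_mem' {n r : ℕ} {e : Matrix (Fin n) (Fin n) B} {c : Matrix (Fin r) (Fin r) B}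
    (S : Subring B) (he : e ∈ (matS S : Subring (Matrix (Fin n) (Fin n) B)))
    (hc : ∀ i j, c i j ∈ S) (m : ℕ) :
    (fromBlocks (fromBlocks e 0 0 c) 0 0 1 :
      Matrix ((Fin n ⊕ Fin r) ⊕ Fin m) ((Fin n ⊕ Fin r) ⊕ Fin m) B) ∈
      (matS S : Subring (Matrix ((Fin n ⊕ Fin r) ⊕ Fin m) ((Fin n ⊕ Fin r) ⊕ Fin m) B)) := by
  rintro ((i | i) | i) ((j | j) | j)
  · exact he i j
  · exact S.zero_mem
  · exact S.zero_mem
  · exact S.zero_mem
  · exact hc i j
  · exact S.zero_mem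
  · exact S.zero_mem
  · exact S.zero_mem
  · show (1 : Matrix (Fin m) (Fin m) B) i j ∈ S
    rw [Matrix.one_apply]
    split_ifs
    · exact S.one_mem
    · exact S.zero_mem

/-- Abstract form of the trace estimate, for an idempotent matrix `c`. -/
theorem abstract_trace_estimate' {B : Type} [NormedRing B] [NormedAlgebra ℂ B] [CompleteSpace B]
    (S : ℕ → Subalgebra ℂ B) (hScl : ∀ k, IsClosed (S k : Set B)) (hSmono : Monotone S)
    (hSdense : ∀ x : B, ∀ ε > 0, ∃ k, ∃ y ∈ S k, ‖x - y‖ < ε)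
    (fil : ℕ → Submodule ℂ B) (hfmono : Monotone fil) (hf1 : (1 : B) ∈ fil 0)
    (hfmul : ∀ i j, ∀ x ∈ fil i, ∀ y ∈ fil j, x * y ∈ fil (i + j))
    {r : ℕ} (c : Matrix (Fin r) (Fin r) B) (k₀ : ℕ) (hP : ∀ i j, c i j ∈ S k₀) (hcc : c * c = c)
    {n : ℕ} (e f : ℝ≥0 → Matrix (Fin n) (Fin n) B)
    (he : ∀ t, e t * e t = e t) (hf : ∀ t, f t * f t = f t)
    (hec : ∀ i j, Continuous fun t => e t i j) (hfc : ∀ i j, Continuous fun t => f t i j)
    (hbd : ∃ M : ℝ, ∀ t i j, ‖e t i j‖ ≤ M ∧ ‖f t i j‖ ≤ M)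
    (R : ℕ)
    (heR : ∀ ε > 0, ∃ t k, ∃ a : Matrix (Fin n) (Fin n) B,
      ∀ i j, a i j ∈ S k ∧ a i j ∈ fil R ∧ ‖e t i j - a i j‖ < ε)
    (hfR : ∀ ε > 0, ∃ t k, ∃ a : Matrix (Fin n) (Fin n) B,
      ∀ i j, a i j ∈ S k ∧ a i j ∈ fil R ∧ ‖f t i j - a i j‖ < ε)
    (hsame : ∃ (m : ℕ) (x y : Matrix ((Fin n ⊕ Fin r) ⊕ Fin m) ((Fin n ⊕ Fin r) ⊕ Fin m) B),
      x * y = fromBlocks (fromBlocks (e 0) 0 0 0) 0 0 1 ∧
      y * x = fromBlocks (fromBlocks (f 0) 0 0 c) 0 0 1)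
    (C : ℕ → ℝ) (K : ℝ)
    (htr : ∀ L₀ : ℕ, ∃ L ≥ L₀, ∃ τ : ℕ → B →L[ℂ] ℂ, (∀ k, ‖τ k‖ ≤ C k) ∧
      (∀ k, ∀ x ∈ S k, ∀ y ∈ S k, τ k (x * y) = τ k (y * x)) ∧
      (∀ k, ∀ x ∈ S k, x ∈ fil L → τ k x = 0) ∧
      ∀ k ≥ k₀, Real.exp (-K * L) ≤ ‖∑ i, τ k (c i i)‖) : False := by
  classical
  obtain ⟨M₀, hM₀⟩ := hbd
  set M : ℝ := max 1 (max ‖(1 : Matrix (Fin n) (Fin n) B)‖ (n * (n * M₀))) with hMdef
  have hM1 : 1 ≤ M := le_max_left _ _
  have hMone : ‖(1 : Matrix (Fin n) (Fin n) B)‖ ≤ M + 1 := by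
    have h1 : ‖(1 : Matrix (Fin n) (Fin n) B)‖ ≤ M :=
      (le_max_left _ _).trans (le_max_right _ _)
    linarith
  have heM : ∀ t, ‖e t‖ ≤ M := fun t => by
    refine (mat_norm_le_const _ M₀ fun i j => (hM₀ t i j).1).trans ?_
    rw [Fintype.card_fin]
    exact (le_max_right _ _).trans (le_max_right _ _)
  have hfM : ∀ t, ‖f t‖ ≤ M := fun t => by
    refine (mat_norm_le_const _ M₀ fun i j => (hM₀ t i j).2).trans ?_
    rw [Fintype.card_fin]
    exact (le_max_right _ _).trans (le_max_right _ _)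
  set T : ℕ → Subring B := fun k => (S k).toSubring with hT
  have hTcl : ∀ k, IsClosed (T k : Set B) := hScl
  have hTmono : Monotone T := fun i j h x hx => hSmono h hx
  obtain ⟨η, hη, hexp⟩ := exp_contra K (R + 1) (Nat.succ_pos R)
  have hup : ∀ {g : ℝ≥0 → Matrix (Fin n) (Fin n) B}, (∀ ε > 0, ∃ t k,
      ∃ a : Matrix (Fin n) (Fin n) B, ∀ i j, a i j ∈ S k ∧ a i j ∈ fil R ∧
        ‖g t i j - a i j‖ < ε) → ∀ ε > 0, ∃ t k, ∃ a : Matrix (Fin n) (Fin n) B,
      ∀ i j, a i j ∈ T k ∧ a i j ∈ fil (R + 1) ∧ ‖g t i j - a i j‖ < ε := by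
    intro g hg ε hε
    obtain ⟨t, k, a, ha⟩ := hg ε hε
    exact ⟨t, k, a, fun i j => ⟨(ha i j).1, hfmono (Nat.le_succ R) (ha i j).2.1, (ha i j).2.2⟩⟩
  obtain ⟨k₁, e', he'S, he'i, he'e, hest1⟩ := half_estimate T hTcl fil hfmono hf1 hfmul e he hec
    M hM1 heM hMone (R + 1) (hup heR) η hη
  obtain ⟨k₂, f', hf'S, hf'i, hf'f, hest2⟩ := half_estimate T hTcl fil hfmono hf1 hfmul f hf hfc
    M hM1 hfM hMone (R + 1) (hup hfR) η hη
  obtain ⟨m, x, y, hxy, hyx⟩ := hsame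
  -- equivalences over `B`
  have h00 : (0 : Matrix (Fin r) (Fin r) B) * 0 = 0 := by simp
  have hE := mvn_blocks' 0 h00 m he'e
  have hF := mvn_blocks' c hcc m hf'f
  have hiE := idem_blocks' he'i 0 h00 m
  have hiF := idem_blocks' hf'i c hcc m
  have hiE0 := idem_blocks' (he 0) 0 h00 m
  have hiF0 := idem_blocks' (hf 0) c hcc m
  have hEF := mvn_trans hiE hiF0 hiF (mvn_trans hiE hiE0 hiF0 hE ⟨x, y, hxy, hyx⟩)
    (by obtain ⟨u, v, h1, h2⟩ := hF; exact ⟨v, u, h2, h1⟩)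
  -- descent to a subalgebra
  have hcomplete := mat_complete (A := B) (ι := (Fin n ⊕ Fin r) ⊕ Fin m)
  set k₃ : ℕ := max (max k₁ k₂) k₀ with hk₃
  have hk1 : k₁ ≤ k₃ := (le_max_left _ _).trans (le_max_left _ _)
  have hk2 : k₂ ≤ k₃ := (le_max_right _ _).trans (le_max_left _ _)
  have hk0 : k₀ ≤ k₃ := le_max_right _ _
  obtain ⟨k', hk', x', hx', y', hy', hxy', hyx'⟩ := mvn_descend
    (fun k => (matS (T k) : Subring (Matrix ((Fin n ⊕ Fin r) ⊕ Fin m) _ B)))
    (fun k => matS_closed _ (hTcl k)) (fun i j h => matS_mono (hTmono h))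
    (fun z ε hε => matS_dense T hTmono hSdense z ε hε) _ _ hiE hiF k₃
    (blocks_mem' (T k₃) (fun i j => hTmono hk1 (he'S i j)) (fun _ _ => (T k₃).zero_mem) m)
    (blocks_mem' (T k₃) (fun i j => hTmono hk2 (hf'S i j)) (fun i j => hSmono hk0 (hP i j)) m) hEF
  -- the numerical contradiction
  obtain ⟨L₀, hL₀⟩ := hexp (2 * (n * (C k')) + 0)
  obtain ⟨L, hL, τ, hτC, hτtr, hτvan, hτP⟩ := htr L₀
  obtain ⟨j, hjL, hj⟩ := hL₀ L hL
  have hτ1 : (τ k' : B →L[ℂ] ℂ) 1 = 0 :=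
    hτvan k' 1 (S k').one_mem (hfmono (Nat.zero_le L) hf1)
  have htrace := tr_comm (T k') ((τ k' : B →L[ℂ] ℂ) : B →+ ℂ) (fun a ha b hb => hτtr k' a ha b hb)
    x' y' hx' hy'
  rw [hxy', hyx', tr_blocks' _ _ _ _ hτ1, tr_blocks' _ _ _ _ hτ1] at htrace
  have hPval : (∑ i, τ k' (c i i) : ℂ) = ∑ i, τ k' (e' i i) - ∑ i, τ k' (f' i i) := by
    have h1 : ∑ i, τ k' (e' i i) + ∑ _i : Fin r, τ k' 0 =
      ∑ i, τ k' (f' i i) + ∑ i, τ k' (c i i) := htrace
    rw [map_zero, Finset.sum_const_zero, add_zero] at h1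
    rw [h1]
    ring
  have h1 := hest1 (τ k') k' L (hk1.trans hk') hTmono (hτvan k') j hjL
  have h2 := hest2 (τ k') k' L (hk2.trans hk') hTmono (hτvan k') j hjL
  have h3 := hτP k' (hk0.trans hk')
  rw [hPval] at h3
  have h4 := norm_sub_le (∑ i, τ k' (e' i i)) (∑ i, τ k' (f' i i))
  have h5 : (n : ℝ) * (‖τ k'‖ * η ^ (j + 1)) ≤ n * (C k' * η ^ (j + 1)) := by
    gcongr
    exact hτC k'
  linarith only [hj, h1, h2, h3, h4, h5]

end MatNorm

section

variable {G : Type} [Group G]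

/-- A nonzero multiple of a class which is detected by traces of long elements with
at most exponentially small values is not in the image of the assembly map. -/
theorem not_inImage_mul {len : G → ℕ} (h1 : len 1 = 0)
    (hlen : ∀ g h, len (g * h) ≤ len g + len h)
    {P : L2 G →L[ℂ] L2 G} (hP : P ∈ CstarR G) (hPP : P * P = P) (K : ℝ)
    (H : ∀ L₀ : ℕ, ∃ L ≥ L₀, ∃ t : (L2 G →L[ℂ] L2 G) →L[ℂ] ℂ, ‖t‖ ≤ 2 ∧
      (∀ g h : G, t (lam (g * h)) = t (lam (h * g))) ∧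
      (∀ g : G, len g < L → t (lam g) = 0) ∧ Real.exp (-K * L) ≤ ‖t P‖)
    {p : ℕ → G →₀ ℚ} (hp : IsPlacement p) (r : ℕ) (hr : 1 ≤ r) :
    ¬ InImage p (Matrix.diagonal fun _ : Fin r => P) := by
  classical
  rintro ⟨F, n, e, f, q', hloc, hee, hff, hq, m, x, y, hxy, hX, hY⟩
  have hE0 : Ei 0 0 (0 : L2 G →L[ℂ] L2 G) = 0 := (EiL (G := G)).map_zero
  have hq' : q' = Matrix.diagonal fun _ : Fin r => Ei 0 0 P := by
    funext i j
    have h2 := IsCorner.eq_Ei (hq i j)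
    rw [h2]
    by_cases hij : i = j
    · subst hij
      rw [Matrix.diagonal_apply_eq, Matrix.diagonal_apply_eq]
    · rw [Matrix.diagonal_apply_ne _ hij, Matrix.diagonal_apply_ne _ hij, hE0]
  subst hq'
  set R : ℕ := (F ×ˢ F).sup fun a => len (a.1⁻¹ * a.2) with hRdef
  have hR : ∀ u ∈ F, ∀ v ∈ F, len (u⁻¹ * v) ≤ R := fun u hu v hv =>
    Finset.le_sup (f := fun a : G × G => len (a.1⁻¹ * a.2)) (Finset.mem_product.2 ⟨hu, hv⟩ :
      (u, v) ∈ F ×ˢ F)
  have hbd : ∃ M : ℝ, ∀ t i j, ‖e i j t‖ ≤ M ∧ ‖f i j t‖ ≤ M := by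
    choose Me hMe using fun i j => loc_bounded (hloc i j).1
    choose Mf hMf using fun i j => loc_bounded (hloc i j).2
    refine ⟨∑ i, ∑ j, (|Me i j| + |Mf i j|), fun t i j => ?_⟩
    have h2 : |Me i j| + |Mf i j| ≤ ∑ i, ∑ j, (|Me i j| + |Mf i j|) := by
      have h3 : ∀ i j, 0 ≤ |Me i j| + |Mf i j| := fun i j => by (clear * -; positivity)
      calc |Me i j| + |Mf i j| ≤ ∑ j, (|Me i j| + |Mf i j|) :=
            Finset.single_le_sum (f := fun j => |Me i j| + |Mf i j|) (fun j _ => h3 i j)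
              (Finset.mem_univ j)
        _ ≤ _ := Finset.single_le_sum (f := fun i => ∑ j, (|Me i j| + |Mf i j|))
              (fun i _ => Finset.sum_nonneg fun j _ => h3 i j) (Finset.mem_univ i)
    have h4 := (hMe i j t).trans (le_abs_self _)
    have h5 := (hMf i j t).trans (le_abs_self _)
    have h6 := abs_nonneg (Me i j)
    have h7 := abs_nonneg (Mf i j)
    constructor <;> linarith only [h2, h4, h7, h5, h6]
  set PU : UU G := ⟨Ei 0 0 P, Ei_mem_UU hP⟩ with hPU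
  have hPU2 : PU * PU = PU := by
    apply Subtype.ext
    change Ei 0 0 P * Ei 0 0 P = Ei 0 0 P
    rw [Ei_mul_Ei, hPP]
  have hdv : (Matrix.diagonal fun _ : Fin r => PU).map (UU G).val =
      Matrix.diagonal fun _ : Fin r => Ei 0 0 P := by
    ext1 i j
    rw [Matrix.map_apply]
    by_cases hij : i = j
    · subst hij
      rw [Matrix.diagonal_apply_eq, Matrix.diagonal_apply_eq]
      rfl
    · rw [Matrix.diagonal_apply_ne _ hij, Matrix.diagonal_apply_ne _ hij]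
      rfl
  refine abstract_trace_estimate' (B := UU G) (Sk G) isClosed_Sk Sk_mono Sk_dense (fil len)
    (fil_mono len) (one_mem_fil h1) (fil_mul hlen) (Matrix.diagonal fun _ : Fin r => PU) 1 ?_ ?_
    (n := n) (fun t => liftM (fun i j => e i j t) fun i j => IsU.mem_UU (loc_mem (hloc i j).1 t))
    (fun t => liftM (fun i j => f i j t) fun i j => IsU.mem_UU (loc_mem (hloc i j).2 t))
    ?_ ?_ ?_ ?_ ?_ R ?_ ?_ ?_ (fun k => k * 2) (2 * |K|) ?_
  · intro i j
    by_cases hij : i = j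
    · subst hij
      rw [Matrix.diagonal_apply_eq]
      exact Ei_mem_SkA P
    · rw [Matrix.diagonal_apply_ne _ hij]
      exact (Sk G 1).zero_mem
  · rw [Matrix.diagonal_mul_diagonal]
    simp only [hPU2]
  · intro t
    apply map_val_inj
    rw [Matrix.map_mul]
    have h2 := congrArg (fun M : Matrix (Fin n) (Fin n) (ℝ≥0 → L2 (G × ℕ) →L[ℂ] L2 (G × ℕ)) =>
      M.map (Pi.evalRingHom _ t)) hee
    rw [Matrix.map_mul] at h2
    exact h2
  · intro t
    apply map_val_inj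
    rw [Matrix.map_mul]
    have h2 := congrArg (fun M : Matrix (Fin n) (Fin n) (ℝ≥0 → L2 (G × ℕ) →L[ℂ] L2 (G × ℕ)) =>
      M.map (Pi.evalRingHom _ t)) hff
    rw [Matrix.map_mul] at h2
    exact h2
  · intro i j
    exact (loc_continuous (hloc i j).1).subtype_mk _
  · intro i j
    exact (loc_continuous (hloc i j).2).subtype_mk _
  · exact hbd
  · intro ε hε
    exact exists_approx hp len h1 (fun i j => (hloc i j).1) hR hε
  · intro ε hε
    exact exists_approx hp len h1 (fun i j => (hloc i j).2) hR hε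
  · refine ⟨m, liftM x fun i j => IsU.mem_UU (hxy i j).1, liftM y fun i j => IsU.mem_UU (hxy i j).2, ?_, ?_⟩
    · apply map_val_inj
      rw [Matrix.map_mul, liftM_map, liftM_map, hX, fromBlocks_map, fromBlocks_map]
      simp only [Subalgebra.coe_val, ZeroMemClass.coe_zero, Matrix.map_zero, OneMemClass.coe_one, Matrix.map_one, fromBlocks_inj, and_self, and_true]
      rfl
    · apply map_val_inj
      rw [Matrix.map_mul, liftM_map, liftM_map, hY, fromBlocks_map, fromBlocks_map, hdv]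
      simp only [Subalgebra.coe_val, ZeroMemClass.coe_zero, Matrix.map_zero, OneMemClass.coe_one, Matrix.map_one, fromBlocks_inj, and_self, and_true]
      rfl
  · intro L₀
    obtain ⟨L, hL, t, ht2, htr, hlow, hbig⟩ := H (L₀ + 2)
    refine ⟨L - 1, by omega, fun k => (tauK t k).comp valL, fun k => ?_, fun k x hx y hy => ?_,
      fun k x hx hxL => ?_, fun k hk => ?_⟩
    · refine (ContinuousLinearMap.opNorm_comp_le _ _).trans ?_
      have h2 := norm_tauK_le t k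
      have h3 := norm_valL_le (G := G)
      have h4 : (0 : ℝ) ≤ k := Nat.cast_nonneg k
      calc ‖tauK t k‖ * ‖(valL : UU G →L[ℂ] _)‖ ≤ (k * ‖t‖) * 1 := by gcongr
        _ ≤ (k * 2) * 1 := by (clear * - ht2; gcongr)
        _ = k * 2 := mul_one _
    · change tauK t k (x.1 * y.1) = tauK t k (y.1 * x.1)
      exact tauK_trace t (CstarR G) (trace_cstarR t htr) (UU_cmp_mem x.2) (UU_cmp_mem y.2)
        (SkA_comm hx) (SkA_comm hy)
    · obtain ⟨E, hE, hEx⟩ := hxL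
      change tauK t k x.1 = 0
      refine tauK_eq_zero t k (fun g h s m n => UU_equivariant x.2 g h s m n) (E := E)
        (fun g h m n hne => hEx g h m n hne) (fun s hs => hlow s ?_)
      have := hE s hs
      omega
    · have hval : ∀ i : Fin r, ((tauK t k).comp valL) ((Matrix.diagonal fun _ : Fin r => PU) i i) =
          t P := by
        intro i
        rw [Matrix.diagonal_apply_eq]
        change tauK t k (Ei 0 0 P) = t P
        rw [tauK_Ei t hk]
      rw [Finset.sum_congr rfl fun i _ => hval i, Finset.sum_const, Finset.card_univ,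
        Fintype.card_fin, nsmul_eq_mul, norm_mul, Complex.norm_natCast]
      have hr1 : (1 : ℝ) ≤ r := by exact_mod_cast hr
      refine le_trans ?_ (le_mul_of_one_le_left (norm_nonneg _) hr1)
      refine le_trans (Real.exp_le_exp.2 ?_) hbig
      have h2 : ((L - 1 : ℕ) : ℝ) = (L : ℝ) - 1 := by
        rw [Nat.cast_sub (by omega)]
        simp
      rw [h2]
      have h3 : (2 : ℝ) ≤ L := by exact_mod_cast (by omega : 2 ≤ L)
      have h4 := le_abs_self K
      have h5 := abs_nonneg K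
      nlinarith only [h4, h3, h5]

end

end Vale.Agent.P089.Asm
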